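import Mathlib

/-!
# P336: depth-three OR-AND-OR circuits

A bottom OR gate is given by the set of inputs it reads (literals `x_i`, `¬ x_i`, constants), a middle
AND gate by the set of bottom gates it reads, and the top OR gate reads all middle gates.  Fan-in and
fan-out are unbounded.  Gates with the same set of inputs are identified (merging them never increases
the number of gates).  The size is the total number of gates: bottom, middle and the top gate.
-/

namespace Vale.Agent.Lib.P336

/-- An input of a bottom gate: the literal `(i, true)` is `x_i`, the literal `(i, false)` is `¬ x_i`,
and `Sum.inr c` is the constant `c`. -/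
abbrev Inp (n : ℕ) : Type := (Fin n × Bool) ⊕ Bool

/-- The value of an input of a bottom gate on the assignment `x`. -/
def inpVal {n : ℕ} (x : Fin n → Bool) : Inp n → Bool
  | Sum.inl p => x p.1 == p.2
  | Sum.inr c => c

/-- A depth-three OR-AND-OR circuit on `n` variables: the set of its bottom OR gates, the set of its
middle AND gates, and the condition that middle gates read bottom gates of the circuit. -/
structure Circuit (n : ℕ) where
  bottom : Finset (Finset (Inp n))
  middle : Finset (Finset (Finset (Inp n)))
  wired : ∀ A ∈ middle, A ⊆ bottom

/-- The output of the circuit on `x`: some middle AND gate has all its bottom OR gates true. -/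
def Circuit.out {n : ℕ} (c : Circuit n) (x : Fin n → Bool) : Prop :=
  ∃ A ∈ c.middle, ∀ C ∈ A, ∃ i ∈ C, inpVal x i = true

/-- The total number of gates: bottom gates, middle gates and the top gate. -/
def Circuit.size {n : ℕ} (c : Circuit n) : ℕ := c.bottom.card + c.middle.card + 1

/-- The circuit `c` computes the Boolean function `f`. -/
def Computes {n : ℕ} (c : Circuit n) (f : (Fin n → Bool) → Bool) : Prop :=
  ∀ x, f x = true ↔ c.out x

/-- `S_3(f)`: the least total number of gates of an OR-AND-OR circuit computing `f`. -/
noncomputable def S3 {n : ℕ} (f : (Fin n → Bool) → Bool) : ℕ :=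
  sInf {s | ∃ c : Circuit n, Computes c f ∧ c.size = s}

end Vale.Agent.Lib.P336
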