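import Vale.Agent.Lib.P336.Defs

namespace Vale.Agent.Lib.P336

open Finset

/-- the function computed by `b` numbered bottom gates `g` and `m` numbered middle gates `h` -/
def phi (n b m : ℕ) (p : (Fin b → Finset (Inp n)) × (Fin m → Finset (Fin b))) :
    (Fin n → Bool) → Bool :=
  fun x => decide (∃ k : Fin m, ∀ l ∈ p.2 k, ∃ i ∈ p.1 l, inpVal x i = true)

theorem card_dom (n b m : ℕ) :
    Fintype.card ((Fin b → Finset (Inp n)) × (Fin m → Finset (Fin b))) =
      2 ^ ((2 * n + 2) * b + b * m) := by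
  simp only [Fintype.card_prod, Fintype.card_fun, Fintype.card_finset, Fintype.card_fin,
    Fintype.card_sum, Fintype.card_bool]
  rw [← pow_mul, ← pow_mul, ← pow_add]
  congr 2
  ring

theorem mem_range_phi {n : ℕ} (c : Circuit n) (f : (Fin n → Bool) → Bool) (hc : Computes c f) :
    f ∈ (univ : Finset _).image (phi n c.bottom.card c.middle.card) := by
  classical
  let e := c.bottom.equivFin
  let e' := c.middle.equivFin
  refine Finset.mem_image.2 ⟨(fun l => (e.symm l).1,
    fun k => univ.filter fun l => (e.symm l).1 ∈ (e'.symm k).1), Finset.mem_univ _, ?_⟩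
  funext x
  have key : (∃ k : Fin c.middle.card, ∀ l ∈ (univ.filter fun l => (e.symm l).1 ∈ (e'.symm k).1),
      ∃ i ∈ (e.symm l).1, inpVal x i = true) ↔ c.out x := by
    constructor
    · rintro ⟨k, hk⟩
      refine ⟨(e'.symm k).1, (e'.symm k).2, ?_⟩
      intro C hC
      have hCb : C ∈ c.bottom := c.wired _ (e'.symm k).2 hC
      have := hk (e ⟨C, hCb⟩) (by simp [hC])
      simpa using this
    · rintro ⟨A, hA, hall⟩
      refine ⟨e' ⟨A, hA⟩, ?_⟩
      intro l hl
      have : (e.symm l).1 ∈ A := by simpa using hl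
      exact hall _ this
  by_cases hx : f x = true
  · have := (hc x).1 hx
    simp only [phi]
    rw [hx]
    exact decide_eq_true (key.2 this)
  · have h2 : ¬ c.out x := fun h => hx ((hc x).2 h)
    simp only [phi]
    have hx' : f x = false := by simpa using hx
    rw [hx']
    exact decide_eq_false (fun h => h2 (key.1 h))

theorem expo_bound (n t b m : ℕ) (hbm : b + m ≤ t) (ht : (t + 4 * n + 4) ^ 2 ≤ 2 ^ (n + 2)) :
    (2 * n + 2) * b + b * m + (n + 2) < 2 ^ n := by
  have h1 : 4 * (b * m) ≤ t ^ 2 := by nlinarith [sq_nonneg ((b : ℤ) - m), Nat.zero_le b]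
  have h2 : b ≤ t := by omega
  have h3 : (2 : ℕ) ^ (n + 2) = 4 * 2 ^ n := by ring
  have h4 : (2 * n + 2) * b ≤ (2 * n + 2) * t := Nat.mul_le_mul_left _ h2
  nlinarith

theorem lower (n t : ℕ) (ht : (t + 4 * n + 4) ^ 2 ≤ 2 ^ (n + 2)) :
    ∃ f : (Fin n → Bool) → Bool, ∀ c : Circuit n, Computes c f → t + 2 ≤ c.size := by
  classical
  by_contra hcon
  push Not at hcon
  -- every function lies in the union of the ranges
  let U : Finset ((Fin n → Bool) → Bool) :=
    ((range (t + 1)) ×ˢ (range (t + 1))).biUnion fun q =>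
      if q.1 + q.2 ≤ t then (univ : Finset _).image (phi n q.1 q.2) else ∅
  have hU : (univ : Finset ((Fin n → Bool) → Bool)) ⊆ U := by
    intro f _
    obtain ⟨c, hc, hs⟩ := hcon f
    have hs' : c.bottom.card + c.middle.card ≤ t := by
      unfold Circuit.size at hs
      omega
    refine Finset.mem_biUnion.2 ⟨(c.bottom.card, c.middle.card), ?_, ?_⟩
    · simp only [Finset.mem_product, Finset.mem_range]
      omega
    · simp only [hs', if_true]
      exact mem_range_phi c f hc
  have hcardU : U.card ≤ (t + 1) ^ 2 * 2 ^ (2 ^ n - (n + 3)) := by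
    refine Finset.card_biUnion_le.trans ?_
    have : ∀ q ∈ (range (t + 1)) ×ˢ (range (t + 1)),
        (if q.1 + q.2 ≤ t then (univ : Finset _).image (phi n q.1 q.2) else ∅).card ≤
          2 ^ (2 ^ n - (n + 3)) := by
      intro q _
      split_ifs with hq
      · refine Finset.card_image_le.trans ?_
        rw [Finset.card_univ, card_dom]
        refine Nat.pow_le_pow_right (by norm_num) ?_
        have := expo_bound n t q.1 q.2 hq ht
        omega
      · simp
    refine (Finset.sum_le_card_nsmul _ _ _ this).trans ?_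
    rw [Finset.card_product, Finset.card_range, smul_eq_mul, sq]
  have hcard : (univ : Finset ((Fin n → Bool) → Bool)).card = 2 ^ (2 ^ n) := by
    rw [Finset.card_univ]
    simp
  have h5 : (t + 1) ^ 2 ≤ 2 ^ (n + 2) := by
    refine le_trans (Nat.pow_le_pow_left (by omega) 2) ht
  have h6 := expo_bound n t 0 0 (Nat.zero_le _) ht
  have h7 : 2 ^ (2 ^ n) ≤ 2 ^ (n + 2) * 2 ^ (2 ^ n - (n + 3)) := by
    calc 2 ^ (2 ^ n) = (univ : Finset ((Fin n → Bool) → Bool)).card := hcard.symm
      _ ≤ U.card := Finset.card_le_card hU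
      _ ≤ (t + 1) ^ 2 * 2 ^ (2 ^ n - (n + 3)) := hcardU
      _ ≤ 2 ^ (n + 2) * 2 ^ (2 ^ n - (n + 3)) := Nat.mul_le_mul_right _ h5
  rw [← pow_add] at h7
  have h8 : n + 2 + (2 ^ n - (n + 3)) < 2 ^ n := by omega
  exact absurd h7 (not_le.mpr (Nat.pow_lt_pow_right (by norm_num) h8))

end Vale.Agent.Lib.P336
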