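import Vale.Agent.Lib.P336.Defs

namespace Vale.Agent.Lib.P336

open Finset

/-- the assignment which is true exactly on `T` -/
def asg {n : ℕ} (T : Finset (Fin n)) : Fin n → Bool := fun i => decide (i ∈ T)

/-- the bottom gate reading the single literal `x_i = b` -/
def litGate {n : ℕ} (i : Fin n) (b : Bool) : Finset (Inp n) := {Sum.inl (i, b)}

/-- the maximal clause on the variables of `R` which is false exactly when `x` agrees with `asg β` on `R` -/
def clauseGate {n : ℕ} (R β : Finset (Fin n)) : Finset (Inp n) :=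
  R.image fun j => Sum.inl (j, !decide (j ∈ β))

/-- the middle gate attached to the assignment `α` of the variables in `S` -/
def midGate {n : ℕ} (f : (Fin n → Bool) → Bool) (S α : Finset (Fin n)) : Finset (Finset (Inp n)) :=
  (S.image fun i => litGate i (decide (i ∈ α))) ∪
    ((Sᶜ.powerset.filter fun β => f (asg (α ∪ β)) = false).image fun β => clauseGate Sᶜ β)

/-- the circuit -/
def splitCircuit {n : ℕ} (f : (Fin n → Bool) → Bool) (S : Finset (Fin n)) : Circuit n where
  bottom := ((S ×ˢ (univ : Finset Bool)).image fun p => litGate p.1 p.2) ∪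
    (Sᶜ.powerset.image fun β => clauseGate Sᶜ β)
  middle := S.powerset.image fun α => midGate f S α
  wired := by
    intro A hA C hC
    obtain ⟨α, _, rfl⟩ := Finset.mem_image.1 hA
    rcases Finset.mem_union.1 hC with h | h
    · obtain ⟨i, hi, rfl⟩ := Finset.mem_image.1 h
      exact Finset.mem_union_left _ (Finset.mem_image.2
        ⟨(i, decide (i ∈ α)), Finset.mem_product.2 ⟨hi, Finset.mem_univ _⟩, rfl⟩)
    · obtain ⟨β, hβ, rfl⟩ := Finset.mem_image.1 h
      exact Finset.mem_union_right _ (Finset.mem_image.2 ⟨β, (Finset.mem_filter.1 hβ).1, rfl⟩)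

theorem splitCircuit_size {n : ℕ} (f : (Fin n → Bool) → Bool) (S : Finset (Fin n)) :
    (splitCircuit f S).size ≤ 2 * S.card + 2 ^ (n - S.card) + 2 ^ S.card + 1 := by
  have h1 : (splitCircuit f S).bottom.card ≤ 2 * S.card + 2 ^ (n - S.card) := by
    refine (Finset.card_union_le _ _).trans (Nat.add_le_add ?_ ?_)
    · refine Finset.card_image_le.trans ?_
      rw [Finset.card_product]
      simp [mul_comm]
    · refine Finset.card_image_le.trans ?_
      rw [Finset.card_powerset, Finset.card_compl, Fintype.card_fin]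
  have h2 : (splitCircuit f S).middle.card ≤ 2 ^ S.card := by
    refine Finset.card_image_le.trans ?_
    rw [Finset.card_powerset]
  unfold Circuit.size
  omega

theorem litGate_true {n : ℕ} (x : Fin n → Bool) (i : Fin n) (b : Bool) :
    (∃ j ∈ litGate i b, inpVal x j = true) ↔ x i = b := by
  simp [litGate, inpVal]

theorem clauseGate_true {n : ℕ} (x : Fin n → Bool) (R β : Finset (Fin n)) :
    (∃ j ∈ clauseGate R β, inpVal x j = true) ↔ ∃ j ∈ R, x j ≠ decide (j ∈ β) := by
  constructor
  · rintro ⟨p, hp, hv⟩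
    obtain ⟨j, hj, rfl⟩ := Finset.mem_image.1 hp
    refine ⟨j, hj, ?_⟩
    intro h
    simp [inpVal, h] at hv
  · rintro ⟨j, hj, hne⟩
    refine ⟨_, Finset.mem_image.2 ⟨j, hj, rfl⟩, ?_⟩
    by_cases hm : j ∈ β <;> cases hx : x j <;> simp_all [inpVal]

theorem splitCircuit_computes {n : ℕ} (f : (Fin n → Bool) → Bool) (S : Finset (Fin n)) :
    Computes (splitCircuit f S) f := by
  intro x
  -- the sets describing `x`
  set α₀ : Finset (Fin n) := S.filter fun i => x i = true with hα₀
  set β₀ : Finset (Fin n) := Sᶜ.filter fun i => x i = true with hβ₀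
  have hx : asg (α₀ ∪ β₀) = x := by
    funext i
    by_cases hi : i ∈ S <;> cases hxi : x i <;> simp [asg, hα₀, hβ₀, hi, hxi]
  constructor
  · intro hf
    refine ⟨midGate f S α₀, Finset.mem_image.2 ⟨α₀, Finset.mem_powerset.2 (Finset.filter_subset _ _), rfl⟩, ?_⟩
    intro C hC
    rcases Finset.mem_union.1 hC with h | h
    · obtain ⟨i, hi, rfl⟩ := Finset.mem_image.1 h
      rw [litGate_true]
      cases hxi : x i <;> simp [hα₀, hi, hxi]
    · obtain ⟨β, hβ, rfl⟩ := Finset.mem_image.1 h
      rw [clauseGate_true]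
      obtain ⟨hβ1, hβ2⟩ := Finset.mem_filter.1 hβ
      by_contra hcon
      push Not at hcon
      have : β = β₀ := by
        ext j
        by_cases hj : j ∈ Sᶜ
        · have := hcon j hj
          cases hxj : x j <;> simp_all
        · have h1 : j ∉ β := fun h => hj (Finset.mem_powerset.1 hβ1 h)
          simp [hβ₀, hj, h1]
      rw [this, hx, hf] at hβ2
      exact absurd hβ2 (by simp)
  · rintro ⟨A, hA, hall⟩
    obtain ⟨α, hα, rfl⟩ := Finset.mem_image.1 hA
    have hαS := Finset.mem_powerset.1 hα
    have hαeq : α = α₀ := by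
      ext i
      by_cases hi : i ∈ S
      · have := hall _ (Finset.mem_union_left _ (Finset.mem_image.2 ⟨i, hi, rfl⟩))
        rw [litGate_true] at this
        cases hxi : x i <;> simp_all
      · have h1 : i ∉ α := fun h => hi (hαS h)
        simp [hα₀, hi, h1]
    by_contra hf
    have hf' : f x = false := by simpa using hf
    have hmem : clauseGate Sᶜ β₀ ∈ midGate f S α := by
      refine Finset.mem_union_right _ (Finset.mem_image.2 ⟨β₀, Finset.mem_filter.2
        ⟨Finset.mem_powerset.2 (Finset.filter_subset _ _), ?_⟩, rfl⟩)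
      rw [hαeq, hx, hf']
    have := hall _ hmem
    rw [clauseGate_true] at this
    obtain ⟨j, hj, hne⟩ := this
    apply hne
    cases hxj : x j <;> simp [hβ₀, hj, hxj]

theorem upper (n : ℕ) (f : (Fin n → Bool) → Bool) :
    ∃ c : Circuit n, Computes c f ∧ c.size ≤ 2 ^ (n / 2) + 2 ^ ((n + 1) / 2) + n + 1 := by
  obtain ⟨S, _, hS⟩ := Finset.exists_subset_card_eq (s := (univ : Finset (Fin n))) (n := n / 2)
    (by rw [Finset.card_univ, Fintype.card_fin]; omega)
  refine ⟨splitCircuit f S, splitCircuit_computes f S, (splitCircuit_size f S).trans ?_⟩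
  rw [hS]
  have : n - n / 2 = (n + 1) / 2 := by omega
  rw [this]
  omega

end Vale.Agent.Lib.P336
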